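import Vale.Agent.P281.H64.Z.Defs
import Vale.Agent.P281.H303.TC.Fin
import Vale.Agent.P281.H64.TW.FinR
import Vale.Agent.P281.H303.X.Fin

/-!
# P281, Towers v2 (helper64): the proof
-/

open Set
open Vale.Agent.P281 Vale.Agent.P281.H713.TZ.S
open Vale.Agent.P281.H511.Surf (IsFibration IsFibre)
open Vale.Agent.P281.H64.Thin (IsThinSet)
open Vale.Agent.P281.H64.TW (KodFCompStmt)
open scoped Manifold ContDiff Topology

set_option linter.unusedSectionVars false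

noncomputable section

namespace Vale.Agent.P281.H64.Z

/-- The input T-HK (with T-SC): very general fibres with a finite étale covering which is simply
connected and symplectic. -/
def HKLe : Prop :=
  ∀ (p d : ℕ) (X Y : Type) [TopologicalSpace X] [ChartedSpace (Cm (p + d)) X]
    [TopologicalSpace Y] [ChartedSpace (Cm p) Y] (f : X → Y) (Δ : Set X → ℝ), 2 ≤ d →
    Fibn (p + d) p f Δ → ClassC (p + d) X →
    ∃ H : ℕ → Set Y, Thins p H ∧ ∀ y, (∀ k, y ∉ H k) →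
      ∀ (F F' : Type) [TopologicalSpace F] [T2Space F] [ChartedSpace (Cm d) F]
        [TopologicalSpace F'] [SimplyConnectedSpace F'] [ChartedSpace (Cm d) F'] (i : F → X)
        (π : F' → F), Fbr (p + d) d f y i → IsCover d π → Sympl d F' →
        kY (p + d) p f Δ ≤ kX (p + d) Δ

theorem thins_empty {p : ℕ} {Y : Type} [TopologicalSpace Y] [ChartedSpace (Cm p) Y] :
    Thins p (fun _ => (∅ : Set Y)) := fun _ => by
  refine ⟨isClosed_empty, fun y => ⟨fun _ => 1, contMDiffAt_const, fun h => ?_,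
    Filter.Eventually.of_forall fun z hz => hz.elim⟩⟩
  exact one_ne_zero h.self_of_nhds

section
variable {n p d : ℕ} {X Y : Type} [TopologicalSpace X] [ChartedSpace (Cm n) X]
  [TopologicalSpace Y] [ChartedSpace (Cm p) Y] {f : X → Y} {Δ : Set X → ℝ}

theorem FibGE.mono {F : Type} [TopologicalSpace F] [ChartedSpace (Cm d) F] {i : F → X}
    {a b : WithBot ℕ∞} (h : FibGE n d i Δ b) (hab : a ≤ b) : FibGE n d i Δ a := by
  rcases h with ⟨h1, h2⟩ | ⟨hC, F', _, _, π, hπ, h⟩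
  · exact Or.inl ⟨h1, hab.trans h2⟩
  · refine Or.inr ⟨hC, F', _, _, π, hπ, ?_⟩
    rcases h with ⟨h1, h2⟩ | ⟨r, h1, h2⟩ | ⟨h1, h2, h3, h4⟩
    · exact Or.inl ⟨h1, hab.trans h2⟩
    · exact Or.inr (Or.inl ⟨r, h1, hab.trans h2⟩)
    · exact Or.inr (Or.inr ⟨h1, h2, h3, hab.trans h4⟩)

theorem union {H H' : ℕ → Set Y} (hH : Thins p H) (hH' : Thins p H') :
    ∃ K : ℕ → Set Y, Thins p K ∧ ∀ y, (∀ j, y ∉ K j) → (∀ j, y ∉ H j) ∧ ∀ j, y ∉ H' j :=
  StatV.thin_union hH hH'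

end

/-- **(I)** -/
theorem good (hk : HKLe) {p d : ℕ} (hd : 0 < d) {X Y : Type} [TopologicalSpace X]
    [ChartedSpace (Cm (p + d)) X] [TopologicalSpace Y] [ChartedSpace (Cm p) Y] (f : X → Y)
    (Δ : Set X → ℝ) (hf : Fibn (p + d) p f Δ) :
    ForAll (p + d) p d f fun F _ _ i => ∀ a : WithBot ℕ∞,
      FibGE (p + d) d i Δ a → a + kY (p + d) p f Δ ≤ kX (p + d) Δ := by
  -- relative dimension one
  have h1 : ∃ H : ℕ → Set Y, Thins p H ∧ ∀ y, (∀ j, y ∉ H j) → ∀ (F : Type)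
      [TopologicalSpace F] [T2Space F] [ChartedSpace (Cm d) F] (i : F → X),
      Fbr (p + d) d f y i → d = 1 → kR (p + d) d i Δ + kY (p + d) p f Δ ≤ kX (p + d) Δ := by
    by_cases h1 : d = 1
    · subst h1
      obtain ⟨H, hH, hm⟩ := H364.Gen.fin f Δ hf
      exact ⟨H, hH, fun y hy F _ _ _ i hi _ => (hm y hy F i hi).1.1⟩
    · exact ⟨_, thins_empty, fun y _ F _ _ _ i _ h => absurd h h1⟩
  -- class C
  have h2 : ∃ H : ℕ → Set Y, Thins p H ∧ ∀ y, (∀ j, y ∉ H j) → ∀ (F F' : Type)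
      [TopologicalSpace F] [T2Space F] [ChartedSpace (Cm d) F] (i : F → X)
      [TopologicalSpace F'] [ChartedSpace (Cm d) F'] (π : F' → F), Fbr (p + d) d f y i →
      IsCover d π → ClassC (p + d) X →
      (∀ r : ℕ, GaussRank d F' r → ((r : ℕ∞) : WithBot ℕ∞) + kY (p + d) p f Δ ≤ kX (p + d) Δ) ∧
      (IsGen d F' → kR (p + d) d i Δ + kY (p + d) p f Δ ≤ kX (p + d) Δ) := by
    by_cases hC : ClassC (p + d) X
    · obtain ⟨H, hH, hm⟩ := H303.StatC.forFibres hd f Δ hf hC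
      refine ⟨H, hH, fun y hy F F' _ _ _ i _ _ π hi hπ _ => ?_⟩
      obtain ⟨ha, hb⟩ := hm y hy F F' i π hi hπ
      exact ⟨ha, fun h => hb (Or.inl h)⟩
    · exact ⟨_, thins_empty, fun y _ F F' _ _ _ i _ _ π _ _ h => absurd h hC⟩
  -- symplectic
  have h3 : ∃ H : ℕ → Set Y, Thins p H ∧ ∀ y, (∀ j, y ∉ H j) → ∀ (F F' : Type)
      [TopologicalSpace F] [T2Space F] [ChartedSpace (Cm d) F] (i : F → X)
      [TopologicalSpace F'] [ChartedSpace (Cm d) F'] (π : F' → F), Fbr (p + d) d f y i →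
      IsCover d π → ClassC (p + d) X → 2 ≤ d → SimplyConnectedSpace F' → Sympl d F' →
      kY (p + d) p f Δ ≤ kX (p + d) Δ := by
    by_cases hC : ClassC (p + d) X ∧ 2 ≤ d
    · obtain ⟨H, hH, hm⟩ := hk p d X Y f Δ hC.2 hf hC.1
      exact ⟨H, hH, fun y hy F F' _ _ _ i _ _ π hi hπ _ _ _ hs => hm y hy F F' i π hi hπ hs⟩
    · exact ⟨_, thins_empty, fun y _ F F' _ _ _ i _ _ π _ _ h h' => absurd ⟨h, h'⟩ hC⟩
  obtain ⟨H₁, hH₁, hm₁⟩ := h1
  obtain ⟨H₂, hH₂, hm₂⟩ := h2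
  obtain ⟨H₃, hH₃, hm₃⟩ := h3
  obtain ⟨K, hK, hKy⟩ := union hH₁ hH₂
  obtain ⟨K', hK', hKy'⟩ := union hK hH₃
  refine ⟨K', hK', fun y hy F _ _ _ i hi a ha => ?_⟩
  obtain ⟨hy1, hy3⟩ := hKy' y hy
  obtain ⟨hy1, hy2⟩ := hKy y hy1
  rcases ha with ⟨h1, h2⟩ | ⟨hC, F', _, _, π, hπ, h⟩
  · exact (add_le_add h2 le_rfl).trans (hm₁ y hy1 F i hi h1)
  · rcases h with ⟨h1, h2⟩ | ⟨r, h1, h2⟩ | ⟨h1, h2, h3, h4⟩
    · exact (add_le_add h2 le_rfl).trans ((hm₂ y hy2 F F' i π hi hπ hC).2 h1)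
    · exact (add_le_add h2 le_rfl).trans ((hm₂ y hy2 F F' i π hi hπ hC).1 r h1)
    · have := hm₃ y hy3 F F' i π hi hπ hC h1 h2 h3
      exact (add_le_add h4 this).trans (zero_add _).le

section
variable {n p d : ℕ} {X Y : Type} [tX : TopologicalSpace X] [cX : ChartedSpace (Cm n) X]
  [tY : TopologicalSpace Y] [cY : ChartedSpace (Cm p) Y] {f : X → Y} {Δ : Set X → ℝ}

theorem neat_iff : Neat n p f Δ ↔ H303.X.MildExc n p f Δ := Iff.rfl

theorem hasNeat_iff : HasNeat n p f Δ ↔ p = 1 ∨ H303.X.HasMildModel n p f Δ := by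
  refine or_congr Iff.rfl ⟨?_, ?_⟩
  · rintro ⟨X₁, Y₁, _, _, _, _, f₁, Δ₁, h1, h2, h3⟩
    exact ⟨X₁, Y₁, _, _, _, _, f₁, Δ₁, ⟨h1, h2⟩, h3⟩
  · rintro ⟨X₁, Y₁, _, _, _, _, f₁, Δ₁, ⟨h1, h2⟩, h3⟩
    exact ⟨X₁, Y₁, _, _, _, _, f₁, Δ₁, h1, h2, h3⟩

theorem addLe_of (hf : Fibn n p f Δ) {a : WithBot ℕ∞} (h : a + kY n p f Δ ≤ kX n Δ) :
    AddLe n p f Δ a :=
  ⟨h, fun hn => (add_le_add le_rfl (H303.X.kap_le_or hf (hasNeat_iff.1 hn))).trans h⟩

theorem comp_le (comp : KodFCompStmt) {q : ℕ} {Z : Type} [TopologicalSpace Z]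
    [ChartedSpace (Cm q) Z] {g : X → Z} {h : Z → Y} (hg : Fibn n q g Δ)
    (hh : Fibn q p h (Bas n q g Δ)) (he : Neat n q g Δ) {a b : WithBot ℕ∞}
    (ha : a + kY n q g Δ ≤ kX n Δ) (hb : b + kY q p h (Bas n q g Δ) ≤ kX q (Bas n q g Δ)) :
    a + b + kY n p (fun x => h (g x)) Δ ≤ kX n Δ := by
  have h1 := comp _ _ _ _ _ _ g h Δ hg hh
  have h2 := H303.X.base_le hg he
  rw [add_assoc]
  exact (add_le_add le_rfl ((add_le_add le_rfl h1).trans (hb.trans h2))).trans ha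

end

/-- one storey -/
theorem some_le (hk : HKLe) {n p d : ℕ} (hn : n = p + d) (hd : 0 < d) {X Y : Type}
    [TopologicalSpace X] [ChartedSpace (Cm n) X] [TopologicalSpace Y] [ChartedSpace (Cm p) Y]
    {f : X → Y} {Δ : Set X → ℝ} {a : WithBot ℕ∞} (hf : Fibn n p f Δ)
    (ha : SomeGE n p d f Δ a) : a + kY n p f Δ ≤ kX n Δ := by
  subst hn
  obtain ⟨H, hH, hm⟩ := good hk hd f Δ hf
  obtain ⟨y, hy, F, _, _, _, i, hi, h⟩ := ha H hH
  exact hm y hy F i hi a h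

/-- **(II)** -/
theorem tower_le (hk : HKLe) (comp : KodFCompStmt) {p k : ℕ} {X Y : Type} [TopologicalSpace Y]
    [ChartedSpace (Cm p) Y] [TopologicalSpace X] [ChartedSpace (Cm (p + k)) X] {f : X → Y}
    {Δ : Set X → ℝ} {a : WithBot ℕ∞} (h : Tower p k X f Δ a) :
    Fibn (p + k) p f Δ ∧ a + kY (p + k) p f Δ ≤ kX (p + k) Δ := by
  induction h with
  | one d X f Δ a hd hf ha => exact ⟨hf, some_le hk rfl hd hf ha⟩
  | step k d X Z g h Δ a b hd hg he ha hb ih =>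
    obtain ⟨ih1, ih2⟩ := ih
    exact ⟨TW.comp_fib hg ih1, comp_le comp hg ih1 he (some_le hk (by omega) hd hg ha) ih2⟩

/-- a bound for the very general fibres of `g` -/
theorem not_some {n p d : ℕ} {X Z : Type} [TopologicalSpace X] [ChartedSpace (Cm n) X]
    [TopologicalSpace Z] [ChartedSpace (Cm p) Z] {g : X → Z} {Δ : Set X → ℝ} {a : WithBot ℕ∞}
    (hcond : ForAll n p d g fun G _ _ i => FibGE n d i Δ (kR n d i Δ))
    (h : ¬ SomeGE n p d g Δ a) : ∃ H : ℕ → Set Z, Thins p H ∧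
      ∀ z, (∀ j, z ∉ H j) → ∀ (G : Type) [TopologicalSpace G] [T2Space G]
        [ChartedSpace (Cm d) G] (i : G → X), Fbr n d g z i → ¬ a ≤ kR n d i Δ := by
  unfold SomeGE at h
  push Not at h
  obtain ⟨H, hH, hz⟩ := h
  obtain ⟨H₂, hH₂, hz₂⟩ := hcond
  obtain ⟨K, hK, hKy⟩ := union hH hH₂
  refine ⟨K, hK, fun z hzK G _ _ _ i hi hle => ?_⟩
  exact hz z (hKy z hzK).1 G inferInstance inferInstance inferInstance i hi
    ((hz₂ z (hKy z hzK).2 G i hi).mono hle)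

theorem exists_kod {n p d : ℕ} {X Z : Type} [TopologicalSpace X] [ChartedSpace (Cm n) X]
    [TopologicalSpace Z] [ChartedSpace (Cm p) Z] {g : X → Z} {Δ : Set X → ℝ}
    (hcond : ForAll n p d g fun G _ _ i => FibGE n d i Δ (kR n d i Δ)) :
    ∃ a : WithBot ℕ∞, (a = ⊥ ∨ SomeGE n p d g Δ a) ∧ ∃ H : ℕ → Set Z, Thins p H ∧
      ∀ z, (∀ j, z ∉ H j) → ∀ (G : Type) [TopologicalSpace G]
        [T2Space G] [ChartedSpace (Cm d) G] (i : G → X), Fbr n d g z i → kR n d i Δ ≤ a := by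
  classical
  by_cases h : ∃ r : ℕ, r ≤ d ∧ SomeGE n p d g Δ ((r : ℕ∞) : WithBot ℕ∞)
  · let P : ℕ → Prop := fun r => SomeGE n p d g Δ ((r : ℕ∞) : WithBot ℕ∞)
    obtain ⟨r₀, hr₀, hP₀⟩ := h
    have hmax : P (Nat.findGreatest P d) := Nat.findGreatest_spec (P := P) hr₀ hP₀
    have hle : Nat.findGreatest P d ≤ d := Nat.findGreatest_le d
    have hgt : ∀ k, Nat.findGreatest P d < k → k ≤ d → ¬ P k := fun k h1 h2 =>
      Nat.findGreatest_is_greatest h1 h2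
    generalize Nat.findGreatest P d = r at hmax hle hgt
    refine ⟨((r : ℕ∞) : WithBot ℕ∞), Or.inr hmax, ?_⟩
    rcases hle.eq_or_lt with h1 | h1
    · subst h1
      exact ⟨_, thins_empty, fun z _ G _ _ _ i _ => H740.kodR_le i Δ⟩
    · obtain ⟨H, hH, hz⟩ := not_some hcond (hgt (r + 1) (Nat.lt_succ_self r) h1)
      exact ⟨H, hH, fun z hzH G _ _ _ i hi => H740.kodR_lt (hz z hzH G i hi)⟩
  · have h0 : ¬ SomeGE n p d g Δ (((0 : ℕ) : ℕ∞) : WithBot ℕ∞) := fun h0 =>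
      h ⟨0, Nat.zero_le d, h0⟩
    obtain ⟨H, hH, hz⟩ := not_some hcond h0
    exact ⟨⊥, Or.inl rfl, H, hH, fun z hzH G _ _ _ i hi => H740.kodR_bot (hz z hzH G i hi)⟩

/-- **(III)** -/
theorem top_le (hk : HKLe) (comp : KodFCompStmt) {p k d : ℕ} (hd : 0 < d) {X Z Y : Type}
    [TopologicalSpace X] [ChartedSpace (Cm (p + (k + d))) X] [TopologicalSpace Z]
    [ChartedSpace (Cm (p + k)) Z] [TopologicalSpace Y] [ChartedSpace (Cm p) Y] {g : X → Z}
    {h : Z → Y} {Δ : Set X → ℝ} (hg : Fibn (p + (k + d)) (p + k) g Δ)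
    (he : Neat (p + (k + d)) (p + k) g Δ)
    (hcond : ForAll (p + (k + d)) (p + k) d g fun G _ _ i =>
      FibGE (p + (k + d)) d i Δ (kR (p + (k + d)) d i Δ))
    (hb : Tower p k Z h (Bas (p + (k + d)) (p + k) g Δ) ((k : ℕ∞) : WithBot ℕ∞)) :
    ForAll (p + (k + d)) p (k + d) (fun x => h (g x)) fun F _ _ i =>
      Function.Injective i → kR (p + (k + d)) (k + d) i Δ +
        kY (p + (k + d)) p (fun x => h (g x)) Δ ≤ kX (p + (k + d)) Δ := by
  have : IsManifold 𝓘(ℂ, Cm (p + k)) ω Z := hg.manifold.2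
  obtain ⟨a, ha, H, hH, hz⟩ := exists_kod hcond
  have hh := (tower_le hk comp hb).1
  have hh0 : IsFibration (Cm (p + k)) (Cm p) h (fun _ => 0) :=
    ⟨hh.hausdorff, hh.compact, hh.connected, hh.manifold, hh.hol, hh.fibres, H740.isSNC_zero⟩
  obtain ⟨H', hH', hy⟩ := H740.easy_n (H740.easy H303.UF.crit) (Nat.add_assoc p k d).symm g h Δ
    hg hh0 a H hH hz
  refine ⟨H', hH', fun y hyH F _ _ _ i hi hinj => ?_⟩
  have h1 := hy y hyH F i hi hinj
  rcases ha with rfl | ha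
  · rw [WithBot.bot_add, le_bot_iff] at h1
    have h2 : kR (p + (k + d)) (k + d) i Δ = ⊥ := h1
    rw [h2, WithBot.bot_add]
    exact bot_le
  · have h2 := (tower_le hk comp (Tower.step k d X Z g h Δ a _ hd hg he ha hb)).2
    exact (add_le_add h1 le_rfl).trans h2

/-- **Towers v2** -/
theorem main (hk : HKLe) (comp : KodFCompStmt) :
    (∀ (p d : ℕ) (X Y : Type) [TopologicalSpace X] [ChartedSpace (Cm (p + d)) X]
      [TopologicalSpace Y] [ChartedSpace (Cm p) Y] (f : X → Y) (Δ : Set X → ℝ), 0 < d →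
      Fibn (p + d) p f Δ → ForAll (p + d) p d f fun F _ _ i => ∀ a : WithBot ℕ∞,
        FibGE (p + d) d i Δ a → AddLe (p + d) p f Δ a) ∧
    (∀ (p k : ℕ) (X Y : Type) [TopologicalSpace X] [ChartedSpace (Cm (p + k)) X]
      [TopologicalSpace Y] [ChartedSpace (Cm p) Y] (f : X → Y) (Δ : Set X → ℝ)
      (a : WithBot ℕ∞), Tower p k X f Δ a → AddLe (p + k) p f Δ a) ∧
    ∀ (p k d : ℕ) (X Z Y : Type) [TopologicalSpace X] [ChartedSpace (Cm (p + (k + d))) X]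
      [TopologicalSpace Z] [ChartedSpace (Cm (p + k)) Z] [TopologicalSpace Y]
      [ChartedSpace (Cm p) Y] (g : X → Z) (h : Z → Y) (Δ : Set X → ℝ), 0 < d →
      Fibn (p + (k + d)) (p + k) g Δ → Neat (p + (k + d)) (p + k) g Δ →
      (ForAll (p + (k + d)) (p + k) d g fun G _ _ i =>
        FibGE (p + (k + d)) d i Δ (kR (p + (k + d)) d i Δ)) →
      Tower p k Z h (Bas (p + (k + d)) (p + k) g Δ) ((k : ℕ∞) : WithBot ℕ∞) →
      ForAll (p + (k + d)) p (k + d) (fun x => h (g x)) fun F _ _ i =>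
        Function.Injective i → AddLe (p + (k + d)) p (fun x => h (g x)) Δ
          (kR (p + (k + d)) (k + d) i Δ) := by
  refine ⟨fun p d X Y _ _ _ _ f Δ hd hf => ?_, fun p k X Y _ _ _ _ f Δ a hT => ?_,
    fun p k d X Z Y _ _ _ _ _ _ g h Δ hd hg he hc hb => ?_⟩
  · obtain ⟨H, hH, hm⟩ := good hk hd f Δ hf
    exact ⟨H, hH, fun y hy F _ _ _ i hi a ha => addLe_of hf (hm y hy F i hi a ha)⟩
  · obtain ⟨hf, h⟩ := tower_le hk comp hT
    exact addLe_of hf h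
  · obtain ⟨H, hH, hm⟩ := top_le hk comp hd hg he hc hb
    have hf : Fibn (p + (k + d)) p (fun x => h (g x)) Δ := TW.comp_fib hg (tower_le hk comp hb).1
    exact ⟨H, hH, fun y hy F _ _ _ i hi hinj => addLe_of hf (hm y hy F i hi hinj)⟩

end Vale.Agent.P281.H64.Z
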