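import Vale.Agent.P281.H64.Z.Core
import Vale.Agent.P281.H64.Z.HkC
import Vale.Agent.P281.H702.Z.Br2

/-!
# P281, Towers v2 (helper64): everything plugged
-/

open Set
open Vale.Agent.P281 Vale.Agent.P281.H713.TZ.S
open scoped Manifold ContDiff Topology

set_option linter.all false

noncomputable section

namespace Vale.Agent.P281.H64.Z

theorem hkLe : HKLe := by
  intro p d X Y _ _ _ _ f Δ hd hf hC
  obtain ⟨X₁, _, _, u, hu, hw⟩ := hC
  obtain ⟨H, hH, hm⟩ := thkC p d X Y X₁ f Δ u hd hf hu hw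
  refine ⟨H, hH, fun y hy F F' _ _ _ _ _ _ i π hi hπ hs => ?_⟩
  have := hπ.1
  have := hf.manifold.1
  have hc := (StatV.isCover_iff.1 hπ).fibre hi
  have := hc.manifold
  exact hm y hy F' (fun t => i (π t)) hc (H702.Z.sympl_hk hs)

end Vale.Agent.P281.H64.Z
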